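import Mathlib

/-!
A pointwise inequality for the circle seminorm `h g = min g (N - g)`:
`∑_t min (t, m-1-t) h (a t + b t) ≤ ∑_{r<s} h (a r + b s)`.
Proof: half circle cuts reduce it to signs; for signs a walk computation.
-/

open Finset

namespace Vale.Agent.Lib.P040S

/-- The second half of the walk. -/
lemma second_half : ∀ (k : ℕ) (x : ℕ → ℤ) (_ : ∀ i, x i = 1 ∨ x i = -1) (D : ℤ),
    2 * ∑ i ∈ range k, |(D + ∑ l ∈ range i, x l) - ((k : ℤ) - 1 - (i : ℤ)) * x i| ≤
        (k : ℤ) ^ 2 + D ^ 2 ∧
      ((k : ℤ) ≤ |D| →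
        ∑ i ∈ range k, |(D + ∑ l ∈ range i, x l) - ((k : ℤ) - 1 - (i : ℤ)) * x i| ≤
          (k : ℤ) * |D|) := by
  intro k
  induction k with
  | zero =>
    intro x _ D
    simp only [range_zero, sum_empty, Nat.cast_zero]
    constructor
    · nlinarith [sq_nonneg D]
    · intro _
      simp
  | succ k ih =>
    intro x hx D
    have hpeel : ∑ i ∈ range (k + 1),
        |(D + ∑ l ∈ range i, x l) - (((k + 1 : ℕ) : ℤ) - 1 - (i : ℤ)) * x i| =
        |D - (k : ℤ) * x 0| + ∑ i ∈ range k,
          |((D + x 0) + ∑ l ∈ range i, x (l + 1)) - ((k : ℤ) - 1 - (i : ℤ)) * x (i + 1)| := by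
      rw [sum_range_succ', add_comm]
      congr 1
      · simp
      · apply sum_congr rfl
        intro i _
        congr 1
        have h1 : ∑ l ∈ range (i + 1), x l = x 0 + ∑ l ∈ range i, x (l + 1) := by
          rw [sum_range_succ', add_comm]
        rw [h1]
        push_cast
        ring
    rw [hpeel]
    obtain ⟨ih1, ih2⟩ := ih (fun i => x (i + 1)) (fun i => hx (i + 1)) (D + x 0)
    set T := ∑ i ∈ range k,
      |((D + x 0) + ∑ l ∈ range i, x (l + 1)) - ((k : ℤ) - 1 - (i : ℤ)) * x (i + 1)| with hT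
    have hk0 : (0 : ℤ) ≤ k := Int.natCast_nonneg k
    push_cast
    by_cases hD : |D| ≤ (k : ℤ)
    · -- small regime
      have hD' := abs_le.1 hD
      have hterm : |D - (k : ℤ) * x 0| = (k : ℤ) - x 0 * D := by
        rcases hx 0 with h | h <;> rw [h]
        · rw [abs_of_nonpos (by linarith)]
          ring
        · rw [abs_of_nonneg (by linarith)]
          ring
      rw [hterm]
      have hsq : (x 0) ^ 2 = 1 := by
        rcases hx 0 with h | h <;> rw [h] <;> norm_num
      constructor
      · have : (D + x 0) ^ 2 = D ^ 2 + 2 * (x 0 * D) + 1 := by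
          nlinarith [hsq]
        nlinarith [ih1, this]
      · intro hc
        -- here |D| = k + 1 is impossible
        exfalso
        linarith
    · -- large regime
      push Not at hD
      have hD1 : (k : ℤ) + 1 ≤ |D| := by omega
      have hlarge : |D - (k : ℤ) * x 0| + T ≤ ((k : ℤ) + 1) * |D| := by
        rcases le_or_gt 0 D with h0 | h0
        · rw [abs_of_nonneg h0] at hD1 ⊢
          rcases hx 0 with h | h
          · have h2 : (k : ℤ) ≤ |D + x 0| := by
              rw [h, abs_of_nonneg (by linarith)]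
              linarith
            have h3 := ih2 h2
            rw [h, abs_of_nonneg (by linarith)] at h3
            rw [h, abs_of_nonneg (by linarith)]
            nlinarith
          · have h2 : (k : ℤ) ≤ |D + x 0| := by
              rw [h, abs_of_nonneg (by linarith)]
              linarith
            have h3 := ih2 h2
            rw [h, abs_of_nonneg (by linarith)] at h3
            rw [h, abs_of_nonneg (by linarith)]
            nlinarith
        · rw [abs_of_neg h0] at hD1 ⊢
          rcases hx 0 with h | h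
          · have h2 : (k : ℤ) ≤ |D + x 0| := by
              rw [h, abs_of_nonpos (by linarith)]
              linarith
            have h3 := ih2 h2
            rw [h, abs_of_nonpos (by linarith)] at h3
            rw [h, abs_of_nonpos (by linarith)]
            nlinarith
          · have h2 : (k : ℤ) ≤ |D + x 0| := by
              rw [h, abs_of_nonpos (by linarith)]
              linarith
            have h3 := ih2 h2
            rw [h, abs_of_nonpos (by linarith)] at h3
            rw [h, abs_of_nonpos (by linarith)]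
            nlinarith
      constructor
      · nlinarith [sq_nonneg (|D| - ((k : ℤ) + 1)), sq_abs D, hlarge]
      · intro _
        exact hlarge

/-- The walk stays below its length. -/
lemma abs_walk_le (x : ℕ → ℤ) (hx : ∀ i, x i = 1 ∨ x i = -1) (j : ℕ) :
    |∑ l ∈ range j, x l| ≤ (j : ℤ) := by
  induction j with
  | zero => simp
  | succ j ih =>
    rw [sum_range_succ]
    have h1 : |x j| = 1 := by
      rcases hx j with h | h <;> rw [h] <;> norm_num
    have := abs_add_le (∑ l ∈ range j, x l) (x j)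
    push_cast
    linarith

/-- The first half of the walk. -/
lemma first_half (x : ℕ → ℤ) (hx : ∀ i, x i = 1 ∨ x i = -1) (j : ℕ) :
    2 * ∑ s ∈ range j, |(∑ l ∈ range s, x l) - (s : ℤ) * x s| + (∑ l ∈ range j, x l) ^ 2 =
      (j : ℤ) ^ 2 := by
  induction j with
  | zero => simp
  | succ j ih =>
    rw [sum_range_succ, sum_range_succ]
    set D := ∑ l ∈ range j, x l with hD
    have hb := abs_le.1 (abs_walk_le x hx j)
    rw [← hD] at hb
    have hterm : |D - (j : ℤ) * x j| = (j : ℤ) - x j * D := by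
      rcases hx j with h | h <;> rw [h]
      · rw [abs_of_nonpos (by linarith)]
        ring
      · rw [abs_of_nonneg (by linarith)]
        ring
    rw [hterm]
    have hsq : (x j) ^ 2 = 1 := by
      rcases hx j with h | h <;> rw [h] <;> norm_num
    push_cast
    nlinarith [ih, hsq]

/-- Arithmetic sum. -/
lemma sum_arith (c : ℤ) (k : ℕ) :
    ∑ i ∈ range k, (c + 2 * (i : ℤ)) = (k : ℤ) * c + (k : ℤ) * ((k : ℤ) - 1) := by
  induction k with
  | zero => simp
  | succ k ih =>
    rw [sum_range_succ, ih]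
    push_cast
    ring

/-- The walk bound with the weights `min s (m - 1 - s)`. -/
lemma walk_bound (m : ℕ) (x : ℕ → ℤ) (hx : ∀ i, x i = 1 ∨ x i = -1) :
    ∑ s ∈ range m, |(∑ l ∈ range s, x l) - ((min s (m - 1 - s) : ℕ) : ℤ) * x s| ≤
      ∑ s ∈ range m, ((s : ℤ) - ((min s (m - 1 - s) : ℕ) : ℤ)) := by
  obtain ⟨j, k, hm, hkj, hjk⟩ : ∃ j k : ℕ, m = j + k ∧ k ≤ j ∧ j ≤ k + 1 :=
    ⟨(m + 1) / 2, m / 2, by omega, by omega, by omega⟩
  subst hm
  rw [sum_range_add, sum_range_add]
  have h1 : ∀ s ∈ range j, |(∑ l ∈ range s, x l) -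
      ((min s (j + k - 1 - s) : ℕ) : ℤ) * x s| = |(∑ l ∈ range s, x l) - (s : ℤ) * x s| := by
    intro s hs
    have hs' := mem_range.1 hs
    have : min s (j + k - 1 - s) = s := by omega
    rw [this]
  have h2 : ∀ s ∈ range j, ((s : ℤ) - ((min s (j + k - 1 - s) : ℕ) : ℤ)) = 0 := by
    intro s hs
    have hs' := mem_range.1 hs
    have : min s (j + k - 1 - s) = s := by omega
    rw [this]
    ring
  have h3 : ∀ i ∈ range k, |(∑ l ∈ range (j + i), x l) -
      ((min (j + i) (j + k - 1 - (j + i)) : ℕ) : ℤ) * x (j + i)| =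
      |((∑ l ∈ range j, x l) + ∑ l ∈ range i, x (j + l)) -
        ((k : ℤ) - 1 - (i : ℤ)) * x (j + i)| := by
    intro i hi
    have hi' := mem_range.1 hi
    have : min (j + i) (j + k - 1 - (j + i)) = k - 1 - i := by omega
    rw [this, sum_range_add]
    have h5 : ((k - 1 - i : ℕ) : ℤ) = (k : ℤ) - 1 - (i : ℤ) := by omega
    rw [h5]
  have h4 : ∀ i ∈ range k, (((j + i : ℕ) : ℤ) -
      ((min (j + i) (j + k - 1 - (j + i)) : ℕ) : ℤ)) =
      (((j : ℤ) - (k : ℤ) + 1) + 2 * (i : ℤ)) := by
    intro i hi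
    have hi' := mem_range.1 hi
    have : min (j + i) (j + k - 1 - (j + i)) = k - 1 - i := by omega
    rw [this]
    have h5 : ((k - 1 - i : ℕ) : ℤ) = (k : ℤ) - 1 - (i : ℤ) := by omega
    rw [h5]
    push_cast
    ring
  rw [sum_congr rfl h1, sum_congr rfl h2, sum_congr rfl h3, sum_congr rfl h4, sum_arith]
  simp only [sum_const_zero, zero_add]
  have hf := first_half x hx j
  have hs := (second_half k (fun i => x (j + i)) (fun i => hx (j + i))
    (∑ l ∈ range j, x l)).1
  set S1 := ∑ s ∈ range j, |(∑ l ∈ range s, x l) - (s : ℤ) * x s| with hS1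
  set S2 := ∑ i ∈ range k, |((∑ l ∈ range j, x l) + ∑ l ∈ range i, x (j + l)) -
        ((k : ℤ) - 1 - (i : ℤ)) * x (j + i)| with hS2
  set E := ∑ l ∈ range j, x l with hE
  have hkey : 2 * (S1 + S2) ≤ (j : ℤ) ^ 2 + (k : ℤ) ^ 2 := by nlinarith
  have hgoal : (k : ℤ) * ((j : ℤ) - (k : ℤ) + 1) + (k : ℤ) * ((k : ℤ) - 1) = (j : ℤ) * k := by ring
  rw [hgoal]
  have hdiff : (j : ℤ) = k ∨ (j : ℤ) = k + 1 := by omega
  rcases hdiff with h | h
  · rw [h] at hkey ⊢
    nlinarith
  · rw [h] at hkey ⊢
    have h6 : 2 * (S1 + S2) ≤ 2 * (((k : ℤ) + 1) * k) + 1 := by nlinarith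
    generalize ((k : ℤ) + 1) * k = A at h6 ⊢
    omega

/-- The inequality for signs. -/
theorem sign_ineq (m : ℕ) (x y : ℕ → ℤ) (hx : ∀ i, x i = 1 ∨ x i = -1)
    (hy : ∀ i, y i = 1 ∨ y i = -1) :
    ∑ t ∈ range m, ((min t (m - 1 - t) : ℕ) : ℤ) * (1 - x t * y t) ≤
      ∑ s ∈ range m, ∑ r ∈ range s, (1 - x r * y s) := by
  have hw := walk_bound m x hx
  have hterm : ∀ s ∈ range m,
      ((min s (m - 1 - s) : ℕ) : ℤ) * (1 - x s * y s) +
        (((s : ℤ) - ((min s (m - 1 - s) : ℕ) : ℤ)) -
          |(∑ l ∈ range s, x l) - ((min s (m - 1 - s) : ℕ) : ℤ) * x s|) ≤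
      ∑ r ∈ range s, (1 - x r * y s) := by
    intro s _
    have h1 : ∑ r ∈ range s, (1 - x r * y s) = (s : ℤ) - (∑ r ∈ range s, x r) * y s := by
      rw [sum_sub_distrib, sum_mul]
      simp
    rw [h1]
    set A := (∑ l ∈ range s, x l) - ((min s (m - 1 - s) : ℕ) : ℤ) * x s with hA
    have h2 : A * y s ≤ |A| := by
      rcases hy s with h | h <;> rw [h]
      · simpa using le_abs_self A
      · simpa using neg_le_abs A
    have h3 : (∑ r ∈ range s, x r) * y s =
        A * y s + ((min s (m - 1 - s) : ℕ) : ℤ) * x s * y s := by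
      rw [hA]
      ring
    rw [h3]
    nlinarith
  have hsum := sum_le_sum hterm
  rw [sum_add_distrib, sum_sub_distrib] at hsum
  linarith

/-- The sign of a half circle cut. -/
def eps (N θ u : ℕ) : ℤ := if θ < u ∧ u ≤ θ + N then 1 else -1

lemma eps_cases (N θ u : ℕ) : eps N θ u = 1 ∨ eps N θ u = -1 := by
  unfold eps
  split_ifs <;> simp

/-- Half circle cuts measure the circle distance. -/
lemma cut_count (N U V : ℕ) (hUV : U ≤ V) (hV : V ≤ 2 * N) :
    ∑ θ ∈ range N, (1 - eps N θ U * eps N θ V) =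
      2 * ((min (V - U) (2 * N - (V - U)) : ℕ) : ℤ) := by
  set S := (range N).filter
    (fun θ => ¬ ((θ < U ∧ U ≤ θ + N) ↔ (θ < V ∧ V ≤ θ + N))) with hS
  have h1 : ∀ θ ∈ range N, (1 - eps N θ U * eps N θ V) =
      2 * (if ¬ ((θ < U ∧ U ≤ θ + N) ↔ (θ < V ∧ V ≤ θ + N)) then 1 else 0) := by
    intro θ _
    unfold eps
    by_cases hU : θ < U ∧ U ≤ θ + N <;> by_cases hV' : θ < V ∧ V ≤ θ + N <;>
      simp [hU, hV']
  rw [sum_congr rfl h1, ← mul_sum, sum_boole]
  congr 1
  have hcard : S.card = min (V - U) (2 * N - (V - U)) := by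
    by_cases hA : V ≤ N
    · have : S = Ico U V := by
        ext θ
        simp only [hS, mem_filter, mem_range, mem_Ico]
        omega
      rw [this, Nat.card_Ico]
      omega
    · by_cases hB : N ≤ U
      · have : S = Ico (U - N) (V - N) := by
          ext θ
          simp only [hS, mem_filter, mem_range, mem_Ico]
          omega
        rw [this, Nat.card_Ico]
        omega
      · by_cases hC : U ≤ V - N
        · have : S = Ico 0 U ∪ Ico (V - N) N := by
            ext θ
            simp only [hS, mem_filter, mem_range, mem_union, mem_Ico]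
            omega
          have hd : Disjoint (Ico 0 U) (Ico (V - N) N) := by
            rw [disjoint_left]
            intro θ h1 h2
            simp only [mem_Ico] at h1 h2
            omega
          rw [this, card_union_of_disjoint hd, Nat.card_Ico, Nat.card_Ico]
          omega
        · have : S = Ico 0 (V - N) ∪ Ico U N := by
            ext θ
            simp only [hS, mem_filter, mem_range, mem_union, mem_Ico]
            omega
          have hd : Disjoint (Ico 0 (V - N)) (Ico U N) := by
            rw [disjoint_left]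
            intro θ h1 h2
            simp only [mem_Ico] at h1 h2
            omega
          rw [this, card_union_of_disjoint hd, Nat.card_Ico, Nat.card_Ico]
          omega
  rw [← hcard]

/-- The circle seminorm through cuts. -/
lemma cut_h (N a b : ℕ) (hab : a + b ≤ N) :
    ∑ θ ∈ range N, (1 - eps N θ (2 * a) * eps N θ (2 * N - 2 * b)) =
      4 * ((min (a + b) (N - (a + b)) : ℕ) : ℤ) := by
  rw [cut_count N (2 * a) (2 * N - 2 * b) (by omega) (by omega)]
  have : min (2 * N - 2 * b - 2 * a) (2 * N - (2 * N - 2 * b - 2 * a)) =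
      2 * min (a + b) (N - (a + b)) := by omega
  rw [this]
  push_cast
  ring

/-- The pointwise inequality: for all `a`, `b` with `a r + b s ≤ N`. -/
theorem star_ineq (m N : ℕ) (a b : ℕ → ℕ) (hab : ∀ r < m, ∀ s < m, a r + b s ≤ N) :
    ∑ t ∈ range m, min t (m - 1 - t) * min (a t + b t) (N - (a t + b t)) ≤
      ∑ s ∈ range m, ∑ r ∈ range s, min (a r + b s) (N - (a r + b s)) := by
  have hL : (4 : ℤ) * ((∑ t ∈ range m, min t (m - 1 - t) * min (a t + b t) (N - (a t + b t)) : ℕ) : ℤ) =
      ∑ θ ∈ range N, ∑ t ∈ range m, ((min t (m - 1 - t) : ℕ) : ℤ) *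
        (1 - eps N θ (2 * a t) * eps N θ (2 * N - 2 * b t)) := by
    rw [sum_comm]
    push_cast
    rw [mul_sum]
    apply sum_congr rfl
    intro t ht
    rw [← mul_sum, cut_h N (a t) (b t) (hab t (mem_range.1 ht) t (mem_range.1 ht))]
    push_cast
    ring
  have hR : (4 : ℤ) * ((∑ s ∈ range m, ∑ r ∈ range s, min (a r + b s) (N - (a r + b s)) : ℕ) : ℤ) =
      ∑ θ ∈ range N, ∑ s ∈ range m, ∑ r ∈ range s,
        (1 - eps N θ (2 * a r) * eps N θ (2 * N - 2 * b s)) := by
    rw [sum_comm]
    push_cast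
    rw [mul_sum]
    apply sum_congr rfl
    intro s hs
    rw [sum_comm, mul_sum]
    apply sum_congr rfl
    intro r hr
    have hs' := mem_range.1 hs
    have hr' := mem_range.1 hr
    rw [cut_h N (a r) (b s) (hab r (by omega) s hs')]
    push_cast
    ring
  have hmain : (4 : ℤ) * ((∑ t ∈ range m, min t (m - 1 - t) * min (a t + b t) (N - (a t + b t)) : ℕ) : ℤ) ≤
      (4 : ℤ) * ((∑ s ∈ range m, ∑ r ∈ range s, min (a r + b s) (N - (a r + b s)) : ℕ) : ℤ) := by
    rw [hL, hR]
    apply sum_le_sum
    intro θ _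
    exact sign_ineq m (fun i => eps N θ (2 * a i)) (fun i => eps N θ (2 * N - 2 * b i))
      (fun i => eps_cases _ _ _) (fun i => eps_cases _ _ _)
  have := le_of_mul_le_mul_left hmain (by norm_num)
  exact_mod_cast this

end Vale.Agent.Lib.P040S
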